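import Vale.Agent.P286ED.Alg
import Vale.Agent.P286EB.IF
import Vale.Agent.P286ER.Core

/-!
# The adjoint lattice of the universal lattice for `SL_2`
-/

set_option linter.all false

namespace Vale.Agent.P286ED

open Matrix Vale.Agent.P286 Vale.Agent.P286E Vale.Agent.P286EN Vale.Agent.P286EB
open Vale.Agent.P286ER (On)

noncomputable section

attribute [-instance] HahnSeries.powerSeriesAlgebra

variable {A : Type} [CommRing A] {N : ℕ}

/-- Constant vectors. -/
def cv (c : Fin N → A) : Fin N → Ls A := HahnSeries.C ∘ c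

theorem cv_add (c c' : Fin N → A) : cv (c + c') = cv c + cv c' :=
  funext fun i => map_add HahnSeries.C (c i) (c' i)

theorem cv_sub (c c' : Fin N → A) : cv (c - c') = cv c - cv c' :=
  funext fun i => map_sub HahnSeries.C (c i) (c' i)

theorem cv_zero : cv (0 : Fin N → A) = 0 := funext fun _ => map_zero HahnSeries.C

theorem cv_smul (a : A) (c : Fin N → A) : cv (a • c) = (HahnSeries.C a : Ls A) • cv c :=
  funext fun i => map_mul HahnSeries.C a (c i)

theorem cm_cv (X : Matrix (Fin N) (Fin N) A) (c : Fin N → A) : cm X *ᵥ cv c = cv (X *ᵥ c) :=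
  funext fun i => (RingHom.map_mulVec HahnSeries.C X c i).symm

theorem cv_dot (c c' : Fin N → A) : cv c ⬝ᵥ cv c' = HahnSeries.C (c ⬝ᵥ c') :=
  (RingHom.map_dotProduct HahnSeries.C c c').symm

theorem ord_cv (c : Fin N → A) (i : Fin N) : Ord 0 (cv c i) := Ord.C _

/-- The combinations of the columns with constant coefficients. -/
def cl (S : Matrix (Fin N) (Fin N) (Ls A)) : (Fin N → A) →ₗ[A] (Fin N → Ls A) where
  toFun c := S *ᵥ cv c
  map_add' c c' := by rw [cv_add, mulVec_add]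
  map_smul' a c := by rw [cv_smul, mulVec_smul, RingHom.id_apply, csmul]

theorem cl_apply (S : Matrix (Fin N) (Fin N) (Ls A)) (c : Fin N → A) : cl S c = S *ᵥ cv c := rfl

/-- The coefficients of `tⁿ`. -/
def co (N : ℕ) (A : Type) [CommRing A] (n : ℤ) : (Fin N → Ls A) →ₗ[A] (Fin N → A) where
  toFun w i := (w i).coeff n
  map_add' _ _ := rfl
  map_smul' _ _ := rfl

theorem on_mono {m n : ℤ} (h : m ≤ n) : On N A n ≤ On N A m := fun _ hw i => (hw i).mono h

theorem cl_on {n : ℤ} {S : Matrix (Fin N) (Fin N) (Ls A)} (hS : OrdM n S) (c : Fin N → A) :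
    cl S c ∈ On N A n := fun i => add_zero n ▸ hS.mulVec (ord_cv c) i

theorem co_cl {n : ℤ} {S : Matrix (Fin N) (Fin N) (Ls A)} (hS : Lead n S 1) (c : Fin N → A) :
    co N A n (cl S c) = c := funext fun i => by
  have h := Lead.coeff_mulVec hS (ord_cv c) i
  rw [add_zero] at h
  exact h.trans (HahnSeries.coeff_single_same _ _)

theorem co_on {n m : ℤ} (h : n < m) {w : Fin N → Ls A} (hw : w ∈ On N A m) : co N A n w = 0 :=
  funext fun i => hw i n h

/-- A map with values of order `n` and a left inverse which kills the order `1`. -/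
def LI {V : Type} [AddCommGroup V] [Module A V] (e : V →ₗ[A] (Fin N → Ls A)) (n : ℤ) : Prop :=
  (∀ v, e v ∈ On N A n) ∧ ∃ L : (Fin N → Ls A) →ₗ[A] V, (∀ v, L (e v) = v) ∧
    ∀ w ∈ On N A 1, L w = 0

theorem LI.base {n : ℤ} {S : Matrix (Fin N) (Fin N) (Ls A)} (hS : Lead n S 1) (hn : n < 1) :
    LI (cl S) n := ⟨cl_on hS.1, co N A n, co_cl hS, fun _ => co_on hn⟩

theorem LI.step {V : Type} [AddCommGroup V] [Module A V] {e : V →ₗ[A] (Fin N → Ls A)} {n : ℤ}
    {S : Matrix (Fin N) (Fin N) (Ls A)} (hS : Lead n S 1) (hn : n < 1) (h : LI e (n + 1)) :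
    LI ((cl S).coprod e) n := by
  obtain ⟨h1, L, h2, h3⟩ := h
  refine ⟨fun v => add_mem (cl_on hS.1 v.1) (on_mono (by omega) (h1 v.2)),
    (co N A n).prod (L - L ∘ₗ cl S ∘ₗ co N A n), fun v => ?_, fun w hw => ?_⟩
  · have h4 : co N A n (cl S v.1 + e v.2) = v.1 := by
      rw [map_add, co_cl hS, co_on (by omega) (h1 v.2), add_zero]
    refine Prod.ext h4 ?_
    change L (cl S v.1 + e v.2) - L (cl S (co N A n (cl S v.1 + e v.2))) = v.2
    rw [h4, map_add, h2, add_sub_cancel_left]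
  · refine Prod.ext (co_on hn hw) ?_
    change L w - L (cl S (co N A n w)) = 0
    rw [co_on hn hw, map_zero, map_zero, h3 w hw, sub_zero]

variable [Algebra ℂ A] {E : Ell}

/-- The function `x - x₀`. -/
def Dx (x : A) : Ls A := xs A - HahnSeries.C x

/-- The inverse of `x - x₀`. -/
def wx (x : A) : Ls A :=
  (rhoI (N := 1) (of fun _ _ => x) * rhoI (N := 1) (of fun _ _ => x)) 0 0

theorem wx_mul (x : A) : wx x * Dx x = 1 := by
  have h : rhoI (N := 1) (of fun _ _ => x) * rhoI (N := 1) (of fun _ _ => x) *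
      (rho (N := 1) (of fun _ _ => x) * rho (N := 1) (of fun _ _ => x)) = 1 := by
    rw [mul_assoc, ← mul_assoc (rhoI _) (rho _), rhoI_mul_rho, one_mul, rhoI_mul_rho]
  have h1 := congrFun (congrFun h 0) 0
  rw [rho_mul_rho, Matrix.mul_apply, Fin.sum_univ_one, Matrix.sub_apply, Matrix.smul_apply,
    one_apply_eq, smul_eq_mul, mul_one] at h1
  exact h1

theorem lead_wx (x : A) : Ord 2 (wx x) ∧ (wx x).coeff 2 = 1 := by
  have h := Lead.mul (lead_rhoI (N := 1) (of fun _ _ => x)) (lead_rhoI (N := 1) (of fun _ _ => x))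
  rw [Matrix.one_mul] at h
  exact ⟨h.1 0 0, h.2 0 0⟩

theorem lead_Dx (x : A) : Lead (-2) (Dx x • (1 : Matrix (Fin N) (Fin N) (Ls A))) 1 :=
  Lead.smul (ord_xs.sub ((Ord.C x).mono (by norm_num))) (by
    rw [HahnSeries.coeff_sub, xs_coeff, Ord.C x _ (by norm_num), sub_zero]) lead_one

theorem Dx_mem (x : A) : Dx x ∈ Rg E A :=
  Px_le_Rg E ((Px A).sub_mem xs_mem_Px (C_mem_Px x))

theorem C_mem (x : A) : (HahnSeries.C x : Ls A) ∈ Rg E A := Px_le_Rg E (C_mem_Px x)

theorem rho_sq (x : A) : rho (x • (1 : Matrix (Fin N) (Fin N) A)) * rho (x • 1) = Dx x • 1 := by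
  rw [rho_mul_rho, cm_smul, cm_one, Dx, sub_smul]

theorem rho_comm (x : A) (Z : Matrix (Fin N) (Fin N) (Ls A)) :
    Z * rho (x • 1) = rho (x • 1) * Z := by
  have h : Z = ∑ i, ∑ j, Z i j • cm (single i j (1 : A)) := by
    conv_lhs => rw [matrix_eq_sum_single Z]
    refine Finset.sum_congr rfl fun i _ => Finset.sum_congr rfl fun j _ => ?_
    rw [cm, Matrix.map_single, map_one, smul_single, smul_eq_mul, mul_one]
  rw [h, Finset.sum_mul, Finset.mul_sum]
  refine Finset.sum_congr rfl fun i _ => ?_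
  rw [Finset.sum_mul, Finset.mul_sum]
  refine Finset.sum_congr rfl fun j _ => ?_
  rw [smul_mul_assoc, mul_smul_comm, rho_inter (X' := x • 1)
    (by rw [mul_smul_comm, smul_mul_assoc, mul_one, one_mul])]

theorem sig_eq (x : A) (Y : Matrix (Fin N) (Fin N) A) :
    sig E (x • 1) Y = wx x • (rho (x • 1) * (ys E A • 1 + cm Y)) := by
  have h : rhoI (x • (1 : Matrix (Fin N) (Fin N) A)) = wx x • rho (x • 1) := by
    rw [← one_mul (rho _), ← rhoI_mul_rho (x • (1 : Matrix (Fin N) (Fin N) A)), mul_assoc, rho_sq,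
      mul_smul_comm, mul_one, smul_smul, wx_mul, one_smul]
  rw [sig, h, mul_smul_comm, rho_comm]

/-- A criterion for a matrix to preserve the universal lattice. -/
theorem crit {x : A} {Y : Matrix (Fin N) (Fin N) A} (hp : MPt E (x • 1) Y)
    {Z P Q P' Q' : Matrix (Fin N) (Fin N) (Ls A)} (hP : Ent (Rg E A) P) (hQ : Ent (Rg E A) Q)
    (hP' : Ent (Rg E A) P') (hQ' : Ent (Rg E A) Q') (h1 : Z = P + wx x • ((ys E A • 1 + cm Y) * Q))
    (h2 : Z * (ys E A • 1 + cm Y) = Dx x • P' + (ys E A • 1 + cm Y) * Q') :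
    ∀ m ∈ U E (x • 1) Y, Z *ᵥ m ∈ U E (x • 1) Y := by
  have hs := stab_U hp
  have c1 := col_lat_left (rho (x • 1)) (sig E (x • 1) Y)
  have c2 := col_lat_right (rho (x • 1)) (sig E (x • 1) Y)
  have e1 : Z * rho (x • 1) = rho (x • 1) * P + sig E (x • 1) Y * Q := by
    rw [rho_comm, h1, sig_eq, mul_add, mul_smul_comm, smul_mul_assoc, mul_assoc]
  have e2 : Z * sig E (x • 1) Y = rho (x • 1) * P' + sig E (x • 1) Y * Q' := by
    rw [sig_eq, mul_smul_comm, ← mul_assoc, rho_comm, mul_assoc, h2, mul_add, smul_add,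
      mul_smul_comm, smul_smul, wx_mul, one_smul, smul_mul_assoc, mul_assoc]
  rintro _ ⟨u, v, hu, hv, rfl⟩
  rw [mulVec_add, mulVec_mulVec, mulVec_mulVec, e1, e2]
  exact add_mem (((c1.mul hs hP).add (c2.mul hs hQ)).mulVec hs fun i => Px_le_Rg E (hu i))
    (((c1.mul hs hP').add (c2.mul hs hQ')).mulVec hs fun i => Px_le_Rg E (hv i))

/-- The imaginary unit. -/
def ia (A : Type) [CommRing A] [Algebra ℂ A] : A := algebraMap ℂ A Complex.I

theorem ia_sq : ia A * ia A = -1 := by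
  rw [ia, ← map_mul, Complex.I_mul_I, map_neg, map_one]

theorem hat_eq (ζ : Fin 3 → Ls A) : SL2.hat ζ = h2 (HahnSeries.C (ia A)) ζ := P286ER.sl2_hat ζ

theorem cm_ht (G : Grp) (η : Fin 3 → A) : cm (G.ht η) = G.hat (cv η) := by
  rw [Grp.ht, Grp.hat, cm_eq, map_sum]
  exact Finset.sum_congr rfl fun i _ => cm_smul _ _

theorem cm_y2 (η : Fin 3 → A) : cm (y2 η) = h2 (HahnSeries.C (ia A)) (cv η) :=
  (cm_ht SL2 η).trans (hat_eq _)

theorem cm_Km (η : Fin 3 → A) : cm (Km (ia A) η) = Km (HahnSeries.C (ia A)) (cv η) :=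
  Km_map _ _ _

theorem iC_sq : (HahnSeries.C (ia A) : Ls A) * HahnSeries.C (ia A) = -1 := P286ER.ii_sq

theorem mpt {x : A} {η : Fin 3 → A} (h : η ⬝ᵥ η = fv E x) : MPt E (x • 1) (y2 η) := by
  refine ⟨by rw [mul_smul_comm, smul_mul_assoc, mul_one, one_mul], cm_inj ?_⟩
  rw [cm_mul, cm_y2, h2_sq iC_sq, cv_dot, h, ← cm_one, ← cm_smul, fv, smul_pow, one_pow,
    ← algebraMap_smul A E.a, ← algebraMap_smul A E.b, smul_smul, add_smul, add_smul]

theorem ent_h2 {ζ : Fin 3 → Ls A} (h : ∀ i, ζ i ∈ Rg E A) :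
    Ent (Rg E A) (h2 (HahnSeries.C (ia A)) ζ) := fun i j => by
  fin_cases i <;> fin_cases j
  · exact h 2
  · exact sub_mem (h 0) (mul_mem (C_mem _) (h 1))
  · exact add_mem (h 0) (mul_mem (C_mem _) (h 1))
  · exact neg_mem (h 2)

/-- The value `f'(x₀)`. -/
def dv (E : Ell) (x : A) : A := 3 * x ^ 2 + algebraMap ℂ A E.a

theorem ys_exp {x : A} {η : Fin 3 → A} (h : η ⬝ᵥ η = fv E x) : ys E A * ys E A =
    cv η ⬝ᵥ cv η + Dx x * (HahnSeries.C (dv E x) + Dx x * (xs A + 2 * HahnSeries.C x)) := by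
  rw [ys_sq, cv_dot, h, fv, dv, Dx, cc, cc]
  simp only [map_add, map_mul, map_pow, map_ofNat]
  ring

/-- The matrix `y + K`. -/
def S3 (E : Ell) (η : Fin 3 → A) : Matrix (Fin 3) (Fin 3) (Ls A) := ys E A • 1 + cm (Km (ia A) η)

theorem ent_S3 (η : Fin 3 → A) : Ent (Rg E A) (S3 E η) :=
  (ent_one.smul (ys_mem_Rg E)).add ((ent_cm _).mono (Px_le_Rg E))

theorem lie_gen {x : A} {η : Fin 3 → A} (h : η ⬝ᵥ η = fv E x) {r' r : Fin 3 → A}
    (hc : Hc (ia A) η (dv E x) r' r) (s : Fin 3 → A) {g : Fin 3 → Ls A} (hg : ∀ i, g i ∈ Rg E A) :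
    ∀ m ∈ U E (x • 1) (y2 η), h2 (HahnSeries.C (ia A))
      (S3 E η *ᵥ cv s + (wx x • S3 E η *ᵥ cv r' + cv r) + Dx x • g) *ᵥ m ∈ U E (x • 1) (y2 η) := by
  have c : ∀ (v : Fin 3 → A) i, cv v i ∈ Rg E A := fun v i => C_mem _
  have h1 : cv η ⬝ᵥ cv r' = 0 := by rw [cv_dot, hc.1, map_zero]
  have h2' : (HahnSeries.C (dv E x) : Ls A) • cv r' =
      (2 : Ls A) • Km (HahnSeries.C (ia A)) (cv η) *ᵥ cv r := by
    rw [← cv_smul, hc.2, cv_smul, map_ofNat, ← cm_Km, cm_cv]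
  have he : xs A + 2 * HahnSeries.C x ∈ Rg E A :=
    add_mem (Px_le_Rg E xs_mem_Px) (mul_mem (ofNat_mem _ 2) (C_mem _))
  have hy : Ent (Rg E A) (ys E A • 1 + cm (y2 η)) :=
    (ent_one.smul (ys_mem_Rg E)).add ((ent_cm _).mono (Px_le_Rg E))
  refine crit (mpt h) (ent_h2 (ζ := S3 E η *ᵥ cv s + cv r + Dx x • g) fun i =>
      add_mem (add_mem ((ent_S3 η).mulVec (c s) i) (c r i)) (mul_mem (Dx_mem x) (hg i)))
    (ent_h2 (c r')) ((((ent_h2 (c r')).smul he).add ((ent_h2 (c s)).smul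
      (add_mem (C_mem (dv E x)) (mul_mem (Dx_mem x) he)))).add ((ent_h2 hg).mul hy))
    ((ent_h2 (c r)).add (ent_one.smul (C_mem (η ⬝ᵥ s)))) ?_ ?_
  · rw [cm_y2, ← yK_h2 iC_sq _ h1, ← cm_Km, ← h2_smul, ← h2_add, ← S3]
    congr 1
    abel
  · rw [cm_y2, S3, cm_Km, ← cv_dot]
    exact key_sig iC_sq (wx_mul x) (ys_exp h) h1 h2' _ _

/-- The sections of order `≥ -3`. -/
def emb (E : Ell) (x : A) (η : Fin 3 → A) : V4 A →ₗ[A] (Fin 3 → Ls A) :=
  (cl (S3 E η)).coprod ((cl (Dx x • 1)).coprod ((cl (wx x • S3 E η)).coprod (cl 1)))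

theorem emb_apply (x : A) (η : Fin 3 → A) (t : V4 A) : emb E x η t =
    S3 E η *ᵥ cv t.1 + (wx x • S3 E η *ᵥ cv t.2.2.1 + cv t.2.2.2) + Dx x • cv t.2.1 := by
  change cl _ t.1 + (cl _ t.2.1 + (cl _ t.2.2.1 + cl _ t.2.2.2)) = _
  rw [cl_apply, cl_apply, cl_apply, cl_apply, smul_mulVec, smul_mulVec, one_mulVec, one_mulVec]
  abel

theorem lead_S1 (x : A) (η : Fin 3 → A) : Lead (-1) (wx x • S3 E η) 1 :=
  Lead.smul (lead_wx x).1 (lead_wx x).2 (lead_yY E _)

theorem li_emb (x : A) (η : Fin 3 → A) : LI (emb E x η) (-3) :=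
  LI.step (lead_yY E _) (by norm_num) (LI.step (lead_Dx x) (by norm_num)
    (LI.step (lead_S1 x η) (by norm_num) (LI.base lead_one (by norm_num))))

/-- Vectors of functions. -/
def R3 (E : Ell) (A : Type) [CommRing A] [Algebra ℂ A] : Submodule A (Fin 3 → Ls A) :=
  Submodule.pi Set.univ fun _ => Rm E A

theorem reg_dec (x : A) {r : Ls A} (hr : E.Reg r) : ∃ (a b : A) (g : Ls A), E.Reg g ∧
    r = HahnSeries.C a + ys E A * HahnSeries.C b + Dx x * g := by
  obtain ⟨p, q, rfl⟩ := hr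
  obtain ⟨p', hp⟩ := Polynomial.X_sub_C_dvd_sub_C_eval (p := p) (a := x)
  obtain ⟨q', hq⟩ := Polynomial.X_sub_C_dvd_sub_C_eval (p := q) (a := x)
  refine ⟨p.eval x, q.eval x, _, ⟨p', q', rfl⟩, ?_⟩
  have h1 := congrArg (evx A) hp
  have h2 := congrArg (evx A) hq
  rw [map_sub, map_mul, map_sub, evx_C, evx_C, evx_X] at h1 h2
  change evx A p + evx A q * ys E A = _ + _ + Dx x * (evx A p' + evx A q' * ys E A)
  rw [Dx]
  linear_combination h1 + ys E A * h2

theorem bezout (E : Ell) (x : A) : ∃ α β : A, α * dv E x + 2 * β * fv E x = 1 := by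
  obtain ⟨k, hk⟩ : ∃ k : A, k * (2 * (4 * algebraMap ℂ A E.a ^ 3 + 27 * algebraMap ℂ A E.b ^ 2)) = 1 :=
    ⟨algebraMap ℂ A (2 * (4 * E.a ^ 3 + 27 * E.b ^ 2))⁻¹, by
      have h := congrArg (algebraMap ℂ A) (inv_mul_cancel₀ (mul_ne_zero two_ne_zero E.disc))
      simpa only [map_mul, map_add, map_pow, map_ofNat, map_one] using h⟩
  refine ⟨2 * k * (6 * algebraMap ℂ A E.a * x ^ 2 - 9 * algebraMap ℂ A E.b * x +
    4 * algebraMap ℂ A E.a ^ 2), k * (27 * algebraMap ℂ A E.b - 18 * algebraMap ℂ A E.a * x), ?_⟩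
  rw [dv, fv]
  linear_combination hk

theorem hc_zero (η : Fin 3 → A) (d : A) : Hc (ia A) η d 0 0 :=
  ⟨dotProduct_zero _, by rw [mulVec_zero, smul_zero, smul_zero]⟩

theorem th0_coeff (x : A) : (th0 E x).coeff 0 = dv E x ^ 2 - 8 * x * fv E x ∧
    (th0 E x).coeff (-2) = -(4 * fv E x) := by
  rw [th0, C_mul, HahnSeries.coeff_sub, HahnSeries.coeff_sub, HahnSeries.coeff_smul,
    HahnSeries.coeff_smul, xs_coeff, Ord.C _ (-2) (by norm_num), xs,
    HahnSeries.coeff_single_of_ne (by norm_num), smul_zero, sub_zero, zero_sub, smul_eq_mul, mul_one]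
  exact ⟨HahnSeries.coeff_single_same _ _, rfl⟩

/-- **The adjoint lattice for `SL_2`.** -/
theorem adu (hK : ADMK) (hP : PL) : ADU := by
  intro E A _ _ x η h
  obtain ⟨α, β, hb⟩ := bezout E x
  have hb' : α * dv E x + 2 * β * (η ⬝ᵥ η) = 1 := by rw [h, hb]
  obtain ⟨h1, L, h2', h3⟩ := li_emb (E := E) x η
  let b := emb E x η ∘ₗ Fm (ia A) η (dv E x) α β
  let M : Submodule A (Fin 3 → Ls A) := LinearMap.range b ⊔ (R3 E A).map (act (Dx x • 1))
  have hm : ∀ t : V4 A, Hc (ia A) η (dv E x) t.2.2.1 t.2.2.2 → emb E x η t ∈ LinearMap.range b :=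
    fun t ht => ⟨_, congrArg (emb E x η) (Fm_Gm ia_sq hb' ht)⟩
  have top : M ⊔ On 3 A (-1) = ⊤ := by
    refine eq_top_iff.2 fun v _ => ?_
    choose r hr ho using fun i => P286ER.reg_span E (v i)
    choose c s g hg e using fun i => reg_dec x (hr i)
    have e1 : v = (emb E x η (s, 0, 0, 0) + (Dx x • 1 : Matrix _ _ _) *ᵥ g) +
        ((v - r) + cv (c - Km (ia A) η *ᵥ s)) := by
      have e2 : r = cv c + ys E A • cv s + Dx x • g := funext e
      rw [emb_apply, cv_zero, mulVec_zero, smul_zero, smul_zero, S3, add_mulVec, smul_mulVec,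
        smul_mulVec, one_mulVec, one_mulVec, cm_cv, cv_sub, e2]
      abel
    rw [e1]
    exact Submodule.add_mem_sup (Submodule.add_mem_sup (hm _ (hc_zero _ _))
      ⟨g, fun i _ => hg i, rfl⟩) (add_mem ho (on_mono (by norm_num) (ord_cv _)))
  have rg : LinearMap.range b = M ⊓ On 3 A (-((3 : ℕ) : ℤ)) := by
    refine le_antisymm (le_inf le_sup_left ?_) ?_
    · rintro _ ⟨u, rfl⟩
      exact h1 _
    · rintro v ⟨hv, ho⟩
      obtain ⟨_, ⟨u, rfl⟩, _, ⟨g, hg, rfl⟩, rfl⟩ := Submodule.mem_sup.1 hv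
      refine add_mem ⟨u, rfl⟩ ?_
      have o1 : act (Dx x • 1) g ∈ On 3 A (-3) := (add_mem_cancel_left (h1 _)).1 ho
      rw [act_apply, smul_mulVec, one_mulVec] at o1 ⊢
      have e : g = cv fun i => (g i).coeff 0 := funext fun i =>
        P286ER.reg_h0 (hg i trivial) (by
          have o2 := (lead_wx x).1.mul' (o1 i)
          rwa [Pi.smul_apply, smul_eq_mul, ← mul_assoc, wx_mul, one_mul] at o2)
      have m := hm (0, fun i => (g i).coeff 0, 0, 0) (hc_zero _ _)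
      rwa [emb_apply, cv_zero, mulVec_zero, smul_zero, add_zero, add_zero, zero_add, ← e] at m
  obtain ⟨T, hT, hM⟩ := hK A 3 3 M b (Gm (ia A) η (dv E x) α β ∘ₗ L) 1
    (eq_top_iff.2 (top.ge.trans (sup_le_sup_left (on_mono (by norm_num)) _))) rg
    (fun z => (congrArg (Gm (ia A) η (dv E x) α β) (h2' _)).trans (Gm_Fm hb' z))
    fun w hw => by rw [LinearMap.comp_apply, h3 w hw, map_zero]
  have pl : ∀ γ : A, ∃ c : A, (dv E x + γ * fv E x) • th0 E x = c • Th T := fun γ => by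
    have col : Col M (wx x • S3 E η * cm ((2 : A) • Km (ia A) η) +
        cm (dv E x • 1 + γ • vecMulVec η η)) := fun j => by
      have m := hm (0, 0, ((2 : A) • Km (ia A) η) *ᵥ Pi.single j 1,
        (dv E x • 1 + γ • vecMulVec η η) *ᵥ Pi.single j 1)
        ⟨by rw [smul_mulVec, dotProduct_smul, dot_K, smul_zero], by
          rw [smul_mulVec, add_mulVec, smul_mulVec, smul_mulVec, one_mulVec, vecMulVec_mulVec,
            op_smul_eq_smul, mulVec_add, mulVec_smul, mulVec_smul, mulVec_smul, K_self, smul_zero,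
            smul_zero, add_zero, smul_comm]⟩
      rw [emb_apply, cv_zero, mulVec_zero, smul_zero, add_zero, zero_add, ← cm_cv, ← cm_cv,
        mulVec_mulVec, ← smul_mulVec, ← add_mulVec, ← smul_mul_assoc] at m
      have e : cv (Pi.single j 1 : Fin 3 → A) = Pi.single j 1 := funext fun i => by
        rw [cv, Function.comp_apply, Pi.apply_single (fun _ => (HahnSeries.C : A →+* Ls A))
          (fun _ => map_zero _), map_one]
      rw [e, mulVec_single_one] at m
      exact Submodule.mem_sup_left m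
    obtain ⟨c, hc⟩ := hP A 3 T M hT hM top _ col
      (((lead_S1 x η).ord.mul (lead_cm _).ord).add ((lead_cm _).ord.mono (by norm_num)))
    refine ⟨c, Eq.trans ?_ hc⟩
    have e : cm (vecMulVec η η) = vecMulVec (cv η) (cv η) :=
      Matrix.ext fun i j => map_mul HahnSeries.C _ _
    rw [S3, cm_smul, cm_add, cm_smul, cm_smul, cm_one, e, cm_Km, map_ofNat,
      det_psi iC_sq (wx_mul x) (ys_exp h), cv_dot, h, ← C_mul, th0, dv]
    simp only [map_add, map_mul, map_pow, map_ofNat, map_sub]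
    ring
  obtain ⟨c, hc⟩ := pl 0
  obtain ⟨c', hc'⟩ := pl 1
  have e : th0 E x = (α * c + 2 * β * (c' - c)) • Th T := by
    have e1 : α * (dv E x + 0 * fv E x) +
      2 * β * (dv E x + 1 * fv E x - (dv E x + 0 * fv E x)) = 1 := by linear_combination hb
    rw [add_smul, mul_smul, mul_smul _ (c' - c), sub_smul, ← hc, ← hc', ← sub_smul, smul_smul,
      smul_smul, ← add_smul, e1, one_smul]
  generalize α * c + 2 * β * (c' - c) = k at e
  have e0 := congrArg (fun w : Ls A => w.coeff 0) e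
  have e2 := congrArg (fun w : Ls A => w.coeff (-2)) e
  simp only [(th0_coeff x).1, (th0_coeff x).2, HahnSeries.coeff_smul, smul_eq_mul] at e0 e2
  have hk : IsUnit k := IsUnit.of_mul_eq_one (α ^ 2 * (Th T).coeff 0 -
    (2 * x * α ^ 2 + β * α * dv E x + β ^ 2 * fv E x) * (Th T).coeff (-2)) (by
      linear_combination (-(α ^ 2)) * e0 + (2 * x * α ^ 2 + β * α * dv E x + β ^ 2 * fv E x) * e2 +
        (α * dv E x + 2 * β * fv E x + 1) * hb)
  obtain ⟨u, rfl⟩ := hk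
  refine ⟨T, u⁻¹, hT, fun p => ?_, by rw [e, smul_smul, Units.inv_mul, one_smul]⟩
  have m : T p ∈ M := hM ▸ mem_range_lin T p
  obtain ⟨_, ⟨z, rfl⟩, _, ⟨g, hg, rfl⟩, e1⟩ := Submodule.mem_sup.1 m
  have l := lie_gen h (hc_Fm ia_sq hb' z) (Fm (ia A) η (dv E x) α β z).1
    (g := cv (Fm (ia A) η (dv E x) α β z).2.1 + g) fun i => add_mem (C_mem _) (hg i trivial)
  rw [smul_add, ← add_assoc, ← emb_apply] at l
  rw [act_apply, smul_mulVec, one_mulVec] at e1
  rw [hat_eq, ← e1]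
  exact l

end

end Vale.Agent.P286ED
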