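import Vale.Agent.P286EB.IF
import Vale.Agent.P286EF.Ob
import Vale.Agent.P286ER.Fld

/-!
# Self-duality and stabilisers over reduced rings; the determinant of the adjoint action
-/

set_option linter.all false

namespace Vale.Agent.P286ED

open Matrix Vale.Agent.P286 Vale.Agent.P286E Vale.Agent.P286EB
open Vale.Agent.P286ER (On IsOb bcM)

noncomputable section

attribute [-instance] HahnSeries.powerSeriesAlgebra

variable {A B : Type} [CommRing A] [Algebra ℂ A] [CommRing B] [Algebra ℂ B] {N : ℕ}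

/-- An element of a reduced algebra which vanishes at all points with values in fields is zero. -/
theorem eq_zero_of_fields [IsReduced A] {a : A}
    (h : ∀ (F : Type) [Field F] [Algebra ℂ F] (f : A →ₐ[ℂ] F), f a = 0) : a = 0 := by
  refine IsNilpotent.eq_zero (nilpotent_iff_mem_prime.2 fun p hp => ?_)
  have h1 := h (FractionRing (A ⧸ p))
    ((IsScalarTower.toAlgHom ℂ (A ⧸ p) (FractionRing (A ⧸ p))).comp (Ideal.Quotient.mkₐ ℂ p))
  exact Ideal.Quotient.eq_zero_iff_mem.1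
    (IsFractionRing.injective (A ⧸ p) (FractionRing (A ⧸ p)) (h1.trans (map_zero _).symm))

theorem ls_eq_zero_of_fields [IsReduced A] {w : Ls A}
    (h : ∀ (F : Type) [Field F] [Algebra ℂ F] (f : A →ₐ[ℂ] F), lm (f : A →+* F) w = 0) : w = 0 :=
  HahnSeries.ext (funext fun k => eq_zero_of_fields fun F _ _ f =>
    congrArg (fun z : Ls F => z.coeff k) (h F f))

/-- The membership in a lattice can be checked at the points with values in fields. -/
theorem mem_of_fields [IsReduced A] {v : ℕ × Fin N → Fin N → Ls A} (hv : Adm v)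
    {u : Fin N → Ls A} (h : ∀ (F : Type) [Field F] [Algebra ℂ F] (f : A →ₐ[ℂ] F),
      lm (f : A →+* F) ∘ u ∈ LinearMap.range (lin fun p => lm (f : A →+* F) ∘ v p)) :
    u ∈ LinearMap.range (lin v) := by
  obtain ⟨-, n, L, h1, h0⟩ := hv
  refine ⟨L u, funext fun i => (sub_eq_zero.1 (ls_eq_zero_of_fields fun F _ _ f => ?_))⟩
  obtain ⟨L', -, h2⟩ := exists_bcL (f : A →+* F) h0
  have h3 : L' ∘ₗ lin (fun p => lm (f : A →+* F) ∘ v p) = 1 := qm_ext fun p => by
    have h4 := LinearMap.congr_fun h1 (Finsupp.single p 1)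
    rw [LinearMap.comp_apply, lin_single] at h4
    rw [LinearMap.comp_apply, lin_single, h2, h4]
    simp
  obtain ⟨z, hz⟩ := h F f
  have h5 : L' (lm (f : A →+* F) ∘ u) = z := by
    rw [← hz]; exact LinearMap.congr_fun h3 z
  have h6 := congrFun (lm_lin (f : A →+* F) v (L u)) i
  rw [← h2, h5, hz] at h6
  rw [map_sub, sub_eq_zero]
  exact h6

theorem reg_bc {E : Ell} (f : A →ₐ[ℂ] B) (Φ : Matrix (Fin N) (Fin N) ℂ)
    {M : Submodule A (Fin N → Ls A)} {u : Fin N → Ls A}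
    (hu : ∀ m ∈ M, E.Reg (u ⬝ᵥ cst A Φ *ᵥ m)) : ∀ m ∈ bcM (f : A →+* B) M,
      E.Reg ((lm (f : A →+* B) ∘ u) ⬝ᵥ cst B Φ *ᵥ m) := fun m hm => by
  refine bcM_induction (P := fun m => E.Reg ((lm (f : A →+* B) ∘ u) ⬝ᵥ cst B Φ *ᵥ m))
    (fun m hm => ?_) ?_ (fun m m' h h' => ?_) (fun c m h => ?_) hm
  · rw [← lm_form]
    exact P286ER.reg_lm f (hu m hm)
  · rw [mulVec_zero, dotProduct_zero]
    exact P286ER.reg_zero
  · rw [mulVec_add, dotProduct_add]
    exact P286ER.reg_add h h'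
  · rw [mulVec_csmul, dot_csmul]
    exact P286ER.reg_smul c h

theorem form_bc {E : Ell} (f : A →ₐ[ℂ] B) (Φ : Matrix (Fin N) (Fin N) ℂ)
    {M : Submodule A (Fin N → Ls A)} (hM : ∀ u ∈ M, ∀ m ∈ M, E.Reg (u ⬝ᵥ cst A Φ *ᵥ m)) :
    ∀ u ∈ bcM (f : A →+* B) M, ∀ m ∈ bcM (f : A →+* B) M, E.Reg (u ⬝ᵥ cst B Φ *ᵥ m) :=
  fun u hu m hm => by
  refine bcM_induction (P := fun u => E.Reg (u ⬝ᵥ cst B Φ *ᵥ m))
    (fun u hu => reg_bc f Φ (hM u hu) m hm) ?_ (fun m m' h h' => ?_) (fun c m h => ?_) hu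
  · rw [zero_dotProduct]
    exact P286ER.reg_zero
  · rw [add_dotProduct]
    exact P286ER.reg_add h h'
  · rw [csmul_dot]
    exact P286ER.reg_smul c h

/-- Self-duality over a reduced ring, for any nondegenerate form. -/
theorem self_dual [IsReduced A] {E : Ell} {Φ : Matrix (Fin N) (Fin N) ℂ} (hΦ : Φ.det ≠ 0)
    {v : ℕ × Fin N → Fin N → Ls A} (hv : Adm v) {M : Submodule A (Fin N → Ls A)}
    (hM : LinearMap.range (lin v) = M) (hf : ∀ m ∈ M, ∀ m' ∈ M, E.Reg (m ⬝ᵥ cst A Φ *ᵥ m'))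
    {u : Fin N → Ls A} (hu : ∀ m ∈ M, E.Reg (u ⬝ᵥ cst A Φ *ᵥ m)) : u ∈ M := by
  subst hM
  refine mem_of_fields hv fun F _ _ f => ?_
  obtain ⟨l, hl⟩ := P286ER.exists_res E F
  rw [← bcM_range]
  exact (P286ER3.dual F N Φ hΦ l hl.2 _ _ (hv.bc (f : A →+* F)) (bcM_range _ v).symm
    fun m hm m' hm' => hl.1 _ (form_bc f Φ hf m hm m' hm')).1 _
      fun m hm => hl.1 _ (reg_bc f Φ hu m hm)

/-- Row RED. -/
theorem red : RED := fun E G hG A _ _ _ M =>
  ⟨fun ⟨_, hv, hM⟩ hf _ hu => self_dual (P286ER.grp_pos hG).2 hv hM hf hu, fun T h ξ hξ =>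
    mem_of_fields h.admT fun F _ _ f => P286ER.stab E G hG F _ _ (h.bc f) _
      (mulVec_mem_bcM _ fun m hm => by
        rw [← Grp.hat_map, ← lm_mulVec]
        exact mem_bcM _ (hξ m hm))⟩

theorem ad_cross {G : Grp} (hG : G = SL2 ∨ G = SO3) {a : Matrix (Fin G.N) (Fin G.N) (Ls A)}
    (ha : InG G a) (ξ η : Fin 3 → Ls A) :
    G.ad a *ᵥ crossProduct ξ η = crossProduct (G.ad a *ᵥ ξ) (G.ad a *ᵥ η) := by
  have hk := Grp.ok_of hG
  obtain ⟨c, hc⟩ := P286ER.comm_hat (A := A) hG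
  have e : ∀ p q : Matrix (Fin G.N) (Fin G.N) (Ls A),
      a * p * a.adjugate * (a * q * a.adjugate) = a * (p * q) * a.adjugate := fun p q => by
    rw [Matrix.mul_assoc a q, Matrix.mul_assoc _ a.adjugate, ← Matrix.mul_assoc a.adjugate,
      ha.adj_mul, Matrix.one_mul]
    simp only [Matrix.mul_assoc]
  refine hk.hat_inj ?_
  rw [hk.hat_ad ha, hc, hc, hk.hat_ad ha, hk.hat_ad ha, e, e, Matrix.mul_smul, Matrix.smul_mul,
    Matrix.mul_sub, Matrix.sub_mul]

/-- Row DETAD. -/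
theorem detad : DETAD := fun G hG A _ _ a ha => by
  have h1 := (Grp.ok_of hG).ad_dot ha (Pi.single 0 1)
    (crossProduct (Pi.single 1 1) (Pi.single 2 1))
  rw [ad_cross hG ha, triple_product_eq_det, triple_product_eq_det] at h1
  have e1 : (![G.ad a *ᵥ Pi.single 0 1, G.ad a *ᵥ Pi.single 1 1, G.ad a *ᵥ Pi.single 2 1] :
      Matrix (Fin 3) (Fin 3) (Ls A)) = (G.ad a)ᵀ := by
    refine Matrix.ext fun i j => ?_
    fin_cases i <;> simp [transpose_apply]
  have e2 : det (![Pi.single 0 1, Pi.single 1 1, Pi.single 2 1] :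
      Matrix (Fin 3) (Fin 3) (Ls A)) = 1 := by
    refine (det_fin_three _).trans ?_
    simp
  rw [← det_transpose, ← e1]
  exact h1.trans e2

end

end Vale.Agent.P286ED
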