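import Mathlib

/-!
# Pauli matrices, the cross product and a stably free module
-/

set_option linter.all false

namespace Vale.Agent.P286ED

open Matrix

noncomputable section

variable {S S' : Type} [CommRing S] [CommRing S']

/-- The element of `sl_2` with the coordinates `u`. -/
def h2 (I : S) (u : Fin 3 → S) : Matrix (Fin 2) (Fin 2) S :=
  !![u 2, u 0 - I * u 1; u 0 + I * u 1, -u 2]

/-- The operator `v ↦ i η × v`. -/
def Km (I : S) (η : Fin 3 → S) : Matrix (Fin 3) (Fin 3) S :=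
  !![0, -(I * η 2), I * η 1; I * η 2, 0, -(I * η 0); -(I * η 1), I * η 0, 0]

theorem h2_map (φ : S →+* S') (I : S) (u : Fin 3 → S) :
    (h2 I u).map φ = h2 (φ I) (φ ∘ u) := by
  refine Matrix.ext fun i j => ?_
  fin_cases i <;> fin_cases j <;> simp [h2]

theorem Km_map (φ : S →+* S') (I : S) (u : Fin 3 → S) :
    (Km I u).map φ = Km (φ I) (φ ∘ u) := by
  refine Matrix.ext fun i j => ?_
  fin_cases i <;> fin_cases j <;> simp [Km]

variable {I : S} {η : Fin 3 → S}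

theorem h2_add (u v : Fin 3 → S) : h2 I (u + v) = h2 I u + h2 I v := by
  refine Matrix.ext fun i j => ?_
  fin_cases i <;> fin_cases j <;> simp [h2] <;> ring

theorem h2_sub (u v : Fin 3 → S) : h2 I (u - v) = h2 I u - h2 I v := by
  refine Matrix.ext fun i j => ?_
  fin_cases i <;> fin_cases j <;> simp [h2] <;> ring

theorem h2_smul (c : S) (u : Fin 3 → S) : h2 I (c • u) = c • h2 I u := by
  refine Matrix.ext fun i j => ?_
  fin_cases i <;> fin_cases j <;> simp [h2] <;> ring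

theorem Km_mulVec (v : Fin 3 → S) : Km I η *ᵥ v =
    ![I * (η 1 * v 2 - η 2 * v 1), I * (η 2 * v 0 - η 0 * v 2), I * (η 0 * v 1 - η 1 * v 0)] := by
  funext i
  fin_cases i <;> simp [Km, mulVec, dotProduct, Fin.sum_univ_three] <;> ring

theorem dot_K (v : Fin 3 → S) : η ⬝ᵥ Km I η *ᵥ v = 0 := by
  rw [Km_mulVec]
  simp [dotProduct, Fin.sum_univ_three]
  ring

theorem K_self : Km I η *ᵥ η = 0 := by
  rw [Km_mulVec]
  funext i
  fin_cases i <;> simp <;> ring

theorem K_K (hI : I * I = -1) (v : Fin 3 → S) :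
    Km I η *ᵥ (Km I η *ᵥ v) = (η ⬝ᵥ η) • v - (η ⬝ᵥ v) • η := by
  rw [Km_mulVec, Km_mulVec]
  funext i
  fin_cases i <;> simp [dotProduct, Fin.sum_univ_three]
  · linear_combination (η 1 * (η 0 * v 1 - η 1 * v 0) - η 2 * (η 2 * v 0 - η 0 * v 2)) * hI
  · linear_combination (η 2 * (η 1 * v 2 - η 2 * v 1) - η 0 * (η 0 * v 1 - η 1 * v 0)) * hI
  · linear_combination (η 0 * (η 2 * v 0 - η 0 * v 2) - η 1 * (η 1 * v 2 - η 2 * v 1)) * hI

theorem h2_left (hI : I * I = -1) (v : Fin 3 → S) :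
    h2 I η * h2 I v = (η ⬝ᵥ v) • 1 + h2 I (Km I η *ᵥ v) := by
  rw [Km_mulVec]
  refine Matrix.ext fun i j => ?_
  fin_cases i <;> fin_cases j <;> simp [h2, dotProduct, Fin.sum_univ_three]
  · linear_combination (-(η 1 * v 1)) * hI
  · linear_combination (η 2 * v 0 - η 0 * v 2) * hI
  · linear_combination (-(η 2 * v 0 - η 0 * v 2)) * hI
  · linear_combination (-(η 1 * v 1)) * hI

theorem h2_right (hI : I * I = -1) (v : Fin 3 → S) :
    h2 I v * h2 I η = (η ⬝ᵥ v) • 1 - h2 I (Km I η *ᵥ v) := by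
  rw [Km_mulVec]
  refine Matrix.ext fun i j => ?_
  fin_cases i <;> fin_cases j <;> simp [h2, dotProduct, Fin.sum_univ_three]
  · linear_combination (-(η 1 * v 1)) * hI
  · linear_combination (-(η 2 * v 0 - η 0 * v 2)) * hI
  · linear_combination (η 2 * v 0 - η 0 * v 2) * hI
  · linear_combination (-(η 1 * v 1)) * hI

theorem h2_zero : h2 I (0 : Fin 3 → S) = 0 := by
  rw [← zero_smul S (0 : Fin 3 → S), h2_smul, zero_smul]

theorem h2_sq (hI : I * I = -1) : h2 I η * h2 I η = (η ⬝ᵥ η) • 1 := by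
  rw [h2_left hI, K_self, h2_zero, add_zero]

theorem h2_yK (hI : I * I = -1) (y : S) (v : Fin 3 → S) :
    h2 I ((y • 1 + Km I η) *ᵥ v) * (y • 1 + h2 I η) =
      (y * y - η ⬝ᵥ η) • h2 I v + (η ⬝ᵥ v) • (y • 1 + h2 I η) := by
  rw [add_mulVec, smul_mulVec, one_mulVec, h2_add, h2_smul, add_mul, mul_add, mul_add,
    smul_mul_assoc y (h2 I v) (h2 I η), h2_right hI, h2_right hI, dot_K, K_K hI, h2_sub, h2_smul,
    h2_smul, mul_smul_comm, mul_smul_comm, mul_one, mul_one]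
  module

theorem yK_h2 (hI : I * I = -1) (y : S) {v : Fin 3 → S} (h : η ⬝ᵥ v = 0) :
    h2 I ((y • 1 + Km I η) *ᵥ v) = (y • 1 + h2 I η) * h2 I v := by
  rw [add_mulVec, smul_mulVec, one_mulVec, h2_add, h2_smul, add_mul, h2_left hI, h, zero_smul,
    zero_add, smul_mul_assoc, one_mul]

theorem h2_comm (hI : I * I = -1) (y : S) {d : S} {r' r : Fin 3 → S}
    (h : d • r' = (2 : S) • Km I η *ᵥ r) :
    h2 I r * (y • 1 + h2 I η) + d • h2 I r' = (y • 1 + h2 I η) * h2 I r := by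
  rw [← h2_smul, h, h2_smul, mul_add, add_mul, h2_right hI, h2_left hI, smul_mul_assoc,
    mul_smul_comm, mul_one, one_mul]
  module

/-- The identity which shows that the adjoint lattice preserves the second generator. -/
theorem key_sig (hI : I * I = -1) {y w D d e : S} (hw : w * D = 1)
    (hy : y * y = η ⬝ᵥ η + D * (d + D * e)) {r' r : Fin 3 → S} (h1 : η ⬝ᵥ r' = 0)
    (h : d • r' = (2 : S) • Km I η *ᵥ r) (s g : Fin 3 → S) :
    h2 I ((y • 1 + Km I η) *ᵥ s + (w • (y • 1 + Km I η) *ᵥ r' + r) + D • g) * (y • 1 + h2 I η) =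
      D • (e • h2 I r' + (d + D * e) • h2 I s + h2 I g * (y • 1 + h2 I η)) +
        (y • 1 + h2 I η) * (h2 I r + (η ⬝ᵥ s) • 1) := by
  have e1 : w * (y * y - η ⬝ᵥ η) = d + D * e := by linear_combination w * hy + (d + D * e) * hw
  have e2 : y * y - η ⬝ᵥ η = D * (d + D * e) := by linear_combination hy
  rw [h2_add, h2_add, h2_add, h2_smul, h2_smul, add_mul, add_mul, add_mul, h2_yK hI,
    smul_mul_assoc w, h2_yK hI, h1, zero_smul, add_zero, smul_smul, e1, e2, mul_add _ (h2 I r),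
    ← h2_comm hI y h, mul_smul_comm, mul_one, smul_mul_assoc D]
  module

theorem det_form (a b g : S) : (a • 1 + b • Km I η + g • vecMulVec η η).det =
    (a + g * (η ⬝ᵥ η)) * (a * a + b * b * (I * I) * (η ⬝ᵥ η)) := by
  simp [det_fin_three, Km, vecMulVec_apply, dotProduct, Fin.sum_univ_three, Matrix.one_apply]
  ring

theorem mat3_ext {a b : Matrix (Fin 3) (Fin 3) S} (h : ∀ v, a *ᵥ v = b *ᵥ v) : a = b :=
  Matrix.toLin'.injective (LinearMap.ext fun v => by rw [toLin'_apply, toLin'_apply, h])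

theorem K_sq (hI : I * I = -1) : Km I η * Km I η = (η ⬝ᵥ η) • 1 - vecMulVec η η :=
  mat3_ext fun v => by
    rw [← mulVec_mulVec, K_K hI, sub_mulVec, smul_mulVec, one_mulVec, vecMulVec_mulVec,
      op_smul_eq_smul]

/-- The determinant of the three sections. -/
theorem det_psi (hI : I * I = -1) {y w D d e : S} (hw : w * D = 1)
    (hy : y * y = η ⬝ᵥ η + D * (d + D * e)) (γ : S) :
    (w • (y • 1 + Km I η) * ((2 : S) • Km I η) + (d • 1 + γ • vecMulVec η η)).det =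
      (d + γ * (η ⬝ᵥ η)) * (d * d - 4 * (η ⬝ᵥ η) * e) := by
  have e1 : w • (y • 1 + Km I η) * ((2 : S) • Km I η) + (d • 1 + γ • vecMulVec η η) =
      (d + 2 * w * (η ⬝ᵥ η)) • 1 + (2 * w * y) • Km I η + (γ - 2 * w) • vecMulVec η η := by
    rw [smul_mul_assoc, mul_smul_comm, add_mul, K_sq hI, smul_mul_assoc, one_mul]
    module
  rw [e1, det_form, hI]
  generalize η ⬝ᵥ η = f at hy ⊢
  have e2 : d + 2 * w * f + (γ - 2 * w) * f = d + γ * f := by ring
  rw [e2]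
  congr 1
  linear_combination (-(4 * w * w * f)) * hy - (4 * w * f * d + 4 * f * e * (w * D + 1)) * hw

/-- The conditions on the coefficients of a section. -/
def Hc (I : S) (η : Fin 3 → S) (d : S) (r' r : Fin 3 → S) : Prop :=
  η ⬝ᵥ r' = 0 ∧ d • r' = (2 : S) • Km I η *ᵥ r

/-- The scalar product with `η`. -/
def dl (η : Fin 3 → S) : (Fin 3 → S) →ₗ[S] S where
  toFun v := η ⬝ᵥ v
  map_add' := dotProduct_add η
  map_smul' c v := dotProduct_smul c η v

/-- A row. -/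
def rw' (k : Fin 3) : (Fin 3 × Fin 3 → S) →ₗ[S] (Fin 3 → S) :=
  LinearMap.funLeft S S fun j => (k, j)

/-- Four vectors. -/
abbrev V4 (S : Type) : Type := (Fin 3 → S) × (Fin 3 → S) × (Fin 3 → S) × (Fin 3 → S)

section

variable (I η) (d α β : S)

/-- The vector `w'`. -/
def wF : (Fin 3 × Fin 3 → S) →ₗ[S] (Fin 3 → S) :=
  d • rw' 0 - (2 : S) • (Km I η).mulVecLin ∘ₗ rw' 1

/-- The parametrisation. -/
def Fm : (Fin 3 × Fin 3 → S) →ₗ[S] V4 S :=
  (wF I η d - (2 * β) • LinearMap.toSpanSingleton S _ η ∘ₗ LinearMap.proj (2, 0)).prod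
    ((rw' 2 + LinearMap.single S (fun _ => S) 0 ∘ₗ
      (dl η ∘ₗ rw' 0 + (α - 1) • LinearMap.proj (2, 0))).prod
    ((rw' 0 - α • wF I η d - (2 * β) • LinearMap.toSpanSingleton S _ η ∘ₗ dl η ∘ₗ rw' 0).prod
      (rw' 1 + β • (Km I η).mulVecLin ∘ₗ wF I η d)))

/-- The scalar `z`. -/
def zG : V4 S →ₗ[S] S :=
  d • LinearMap.proj 0 ∘ₗ LinearMap.fst S _ _ ∘ₗ LinearMap.snd S _ _ - dl η ∘ₗ LinearMap.fst S _ _

/-- The vector `w'`. -/
def wG : V4 S →ₗ[S] (Fin 3 → S) :=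
  LinearMap.fst S _ _ + (2 * β) • LinearMap.toSpanSingleton S _ η ∘ₗ zG η d

/-- The rows of the inverse. -/
def rG : Fin 3 → (V4 S →ₗ[S] (Fin 3 → S)) :=
  ![LinearMap.fst S _ _ ∘ₗ LinearMap.snd S _ _ ∘ₗ LinearMap.snd S _ _ + α • wG η d β +
      (2 * β) • LinearMap.toSpanSingleton S _ η ∘ₗ
        (LinearMap.proj 0 ∘ₗ LinearMap.fst S _ _ ∘ₗ LinearMap.snd S _ _ - α • zG η d),
    LinearMap.snd S _ _ ∘ₗ LinearMap.snd S _ _ ∘ₗ LinearMap.snd S _ _ -
      β • (Km I η).mulVecLin ∘ₗ wG η d β,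
    LinearMap.fst S _ _ ∘ₗ LinearMap.snd S _ _ + LinearMap.single S (fun _ => S) 0 ∘ₗ
      (zG η d - LinearMap.proj 0 ∘ₗ LinearMap.fst S _ _ ∘ₗ LinearMap.snd S _ _)]

/-- The inverse. -/
def Gm : V4 S →ₗ[S] (Fin 3 × Fin 3 → S) :=
  LinearMap.pi fun p => LinearMap.proj p.2 ∘ₗ rG I η d α β p.1

theorem wF_apply (u : Fin 3 × Fin 3 → S) :
    wF I η d u = d • rw' 0 u - (2 : S) • Km I η *ᵥ rw' 1 u := rfl

theorem Fm_apply (u : Fin 3 × Fin 3 → S) : Fm I η d α β u =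
    (wF I η d u - (2 * β) • rw' 2 u 0 • η,
      rw' 2 u + Pi.single 0 (η ⬝ᵥ rw' 0 u + (α - 1) * rw' 2 u 0),
      rw' 0 u - α • wF I η d u - (2 * β) • (η ⬝ᵥ rw' 0 u) • η,
      rw' 1 u + β • Km I η *ᵥ wF I η d u) := rfl

theorem zG_apply (t : V4 S) : zG η d t = d * t.2.1 0 - η ⬝ᵥ t.1 := rfl

theorem wG_apply (t : V4 S) : wG η d β t = t.1 + (2 * β) • zG η d t • η := rfl

theorem Gm_zero (t : V4 S) : rw' 0 (Gm I η d α β t) =
    t.2.2.1 + α • wG η d β t + (2 * β) • (t.2.1 0 - α * zG η d t) • η := rfl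

theorem Gm_one (t : V4 S) : rw' 1 (Gm I η d α β t) = t.2.2.2 - β • Km I η *ᵥ wG η d β t := rfl

theorem Gm_two (t : V4 S) : rw' 2 (Gm I η d α β t) =
    t.2.1 + Pi.single 0 (zG η d t - t.2.1 0) := rfl

end

theorem rw'_ext {u v : Fin 3 × Fin 3 → S} (h0 : rw' 0 u = rw' 0 v) (h1 : rw' 1 u = rw' 1 v)
    (h2 : rw' 2 u = rw' 2 v) : u = v := by
  funext ⟨k, j⟩
  fin_cases k
  · exact congrFun h0 j
  · exact congrFun h1 j
  · exact congrFun h2 j

variable {d α β : S}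

theorem dot_wF (u : Fin 3 × Fin 3 → S) : η ⬝ᵥ wF I η d u = d * (η ⬝ᵥ rw' 0 u) := by
  rw [wF_apply, dotProduct_sub, dotProduct_smul, dotProduct_smul, dot_K, smul_zero, sub_zero,
    smul_eq_mul]

theorem Gm_Fm (hb : α * d + 2 * β * (η ⬝ᵥ η) = 1) (u : Fin 3 × Fin 3 → S) :
    Gm I η d α β (Fm I η d α β u) = u := by
  have hz : zG η d (Fm I η d α β u) = rw' 2 u 0 := by
    rw [zG_apply, Fm_apply]
    simp only [Pi.add_apply, Pi.single_eq_same, dotProduct_sub, dotProduct_smul, dot_wF,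
      smul_eq_mul]
    linear_combination (rw' 2 u 0) * hb
  have hw : wG η d β (Fm I η d α β u) = wF I η d u := by
    rw [wG_apply, hz, Fm_apply]
    exact sub_add_cancel _ _
  refine rw'_ext ?_ ?_ ?_
  · rw [Gm_zero, hw, hz, Fm_apply]
    simp only [Pi.add_apply, Pi.single_eq_same]
    module
  · rw [Gm_one, hw, Fm_apply]
    exact add_sub_cancel_right _ _
  · rw [Gm_two, hz, Fm_apply]
    simp only [Pi.add_apply, Pi.single_eq_same]
    rw [add_assoc, ← Pi.single_add]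
    refine add_eq_left.2 ((congrArg (Pi.single (M := fun _ => S) 0) ?_).trans (Pi.single_zero 0))
    ring

theorem wF_key (hI : I * I = -1) (hb : α * d + 2 * β * (η ⬝ᵥ η) = 1) {c : S} {w : Fin 3 → S}
    (h : η ⬝ᵥ w = d * c) :
    d • (α • w + (2 * β) • c • η) + (2 : S) • Km I η *ᵥ (β • Km I η *ᵥ w) = w := by
  rw [mulVec_smul, K_K hI, h]
  linear_combination (norm := module) hb • w

theorem dot_key (hb : α * d + 2 * β * (η ⬝ᵥ η) = 1) {c : S} {w : Fin 3 → S}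
    (h : η ⬝ᵥ w = d * c) : η ⬝ᵥ (α • w + (2 * β) • c • η) = c := by
  rw [dotProduct_add, dotProduct_smul, dotProduct_smul, dotProduct_smul, h]
  simp only [smul_eq_mul]
  linear_combination c * hb

theorem hc_Fm (hI : I * I = -1) (hb : α * d + 2 * β * (η ⬝ᵥ η) = 1) (u : Fin 3 × Fin 3 → S) :
    Hc I η d (Fm I η d α β u).2.2.1 (Fm I η d α β u).2.2.2 := by
  rw [Fm_apply]
  constructor
  · change η ⬝ᵥ (_ - _ - _) = 0
    rw [sub_sub, dotProduct_sub, dot_key hb (dot_wF u), sub_self]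
  · have h := wF_key hI hb (dot_wF (I := I) (η := η) (d := d) u)
    change d • (_ - _ - _) = (2 : S) • Km I η *ᵥ (_ + _)
    rw [mulVec_add]
    linear_combination (norm := module) -h - wF_apply I η d u

theorem Fm_Gm (hI : I * I = -1) (hb : α * d + 2 * β * (η ⬝ᵥ η) = 1) {t : V4 S}
    (h : Hc I η d t.2.2.1 t.2.2.2) : Fm I η d α β (Gm I η d α β t) = t := by
  have h0 : η ⬝ᵥ wG η d β t = d * (t.2.1 0 - α * zG η d t) := by
    rw [wG_apply, dotProduct_add, dotProduct_smul, dotProduct_smul]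
    simp only [smul_eq_mul]
    linear_combination zG η d t * hb + zG_apply η d t
  have h1 : η ⬝ᵥ rw' 0 (Gm I η d α β t) = t.2.1 0 - α * zG η d t := by
    rw [Gm_zero, add_assoc, dotProduct_add, h.1, dot_key hb h0, zero_add]
  have h2 : wF I η d (Gm I η d α β t) = wG η d β t := by
    rw [wF_apply, Gm_zero, Gm_one, add_assoc, smul_add, h.2, mulVec_sub, smul_sub]
    refine Eq.trans ?_ (wF_key hI hb h0)
    abel
  have h3 : rw' 2 (Gm I η d α β t) 0 = zG η d t := by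
    rw [Gm_two, Pi.add_apply, Pi.single_eq_same, add_sub_cancel]
  rw [Fm_apply, h1, h2, h3, Gm_zero, Gm_one, Gm_two]
  refine Prod.ext ?_ (Prod.ext ?_ (Prod.ext ?_ ?_))
  · exact add_sub_cancel_right _ _
  · change _ + _ + _ = t.2.1
    rw [add_assoc, ← Pi.single_add]
    refine add_eq_left.2 ((congrArg (Pi.single (M := fun _ => S) 0) ?_).trans (Pi.single_zero 0))
    ring
  · change _ - _ - _ = t.2.2.1
    abel
  · exact sub_add_cancel _ _

end

end Vale.Agent.P286ED
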